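import Mathlib.Analysis.Matrix.Order
import Mathlib.Analysis.Matrix.Spectrum
import Mathlib.Analysis.MeanInequalities
import Mathlib.Analysis.SpecialFunctions.Stirling

/-!
# A trace inequality for two positive matrices and a bound for binomial coefficients
-/

namespace Vale.Agent.P225.H1

open Matrix
open scoped MatrixOrder

variable {ι : Type*} [Fintype ι] [DecidableEq ι]

/-- The arithmetic-geometric mean inequality for the eigenvalues of `A⁻¹ * B`. -/
theorem card_mul_rpow_det_le_trace [Nonempty ι] {A B : Matrix ι ι ℝ} (hA : A.PosDef)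
    (hB : B.PosSemidef) :
    (Fintype.card ι : ℝ) * (B.det / A.det) ^ ((Fintype.card ι : ℝ)⁻¹) ≤ (A⁻¹ * B).trace := by
  set R : Matrix ι ι ℝ := CFC.sqrt A with hR
  have hRR : R * R = A := CFC.sqrt_mul_sqrt_self A hA.posSemidef.nonneg
  have hRh : Rᴴ = R := (CFC.sqrt_nonneg A).posSemidef.isHermitian.eq
  set M : Matrix ι ι ℝ := R⁻¹ * B * R⁻¹ with hM
  have hMps : M.PosSemidef := by
    have := hB.conjTranspose_mul_mul_same R⁻¹
    rwa [conjTranspose_nonsing_inv, hRh] at this
  have hdet : M.det = B.det / A.det := by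
    rw [hM, det_mul, det_mul, det_nonsing_inv, ← hRR, det_mul, Ring.inverse_eq_inv']
    ring
  have htr : M.trace = (A⁻¹ * B).trace := by
    rw [hM, trace_mul_comm, ← mul_assoc, ← hRR, Matrix.mul_inv_rev]
  have hev : ∀ i, 0 ≤ hMps.isHermitian.eigenvalues i := fun i => hMps.eigenvalues_nonneg i
  have h := Real.geom_mean_le_arith_mean (Finset.univ : Finset ι) (fun _ => (1 : ℝ))
    hMps.isHermitian.eigenvalues (fun _ _ => zero_le_one)
    (by simp [Fintype.card_pos]) (fun i _ => hev i)
  simp only [Real.rpow_one, Finset.sum_const, Finset.card_univ, nsmul_eq_mul, mul_one, one_mul] at h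
  rw [← hdet, ← htr, hMps.isHermitian.det_eq_prod_eigenvalues,
    hMps.isHermitian.trace_eq_sum_eigenvalues]
  simp only [RCLike.ofReal_real_eq_id, id]
  rw [le_div_iff₀ (by exact_mod_cast Fintype.card_pos)] at h
  rw [mul_comm]
  exact h

open Real in
/-- Stirling's upper bound `k! ≤ e √k (k/e)^k`. -/
lemma factorial_le_stirling {k : ℕ} (hk : 1 ≤ k) :
    (k.factorial : ℝ) ≤ exp 1 * √k * (k / exp 1) ^ k := by
  obtain ⟨j, rfl⟩ : ∃ j, k = j + 1 := ⟨k - 1, by omega⟩
  have h := Stirling.stirlingSeq'_antitone (Nat.zero_le j)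
  simp only [Function.comp_apply, Nat.succ_eq_add_one, zero_add, Stirling.stirlingSeq_one] at h
  rw [Stirling.stirlingSeq, div_le_iff₀ (by positivity)] at h
  refine h.trans (le_of_eq ?_)
  rw [Real.sqrt_mul (by norm_num : (0 : ℝ) ≤ 2)]
  field_simp

open Real in
lemma pow_div_pow_le_ascFactorial (n k : ℕ) :
    ((n + k : ℕ) : ℝ) ^ (n + k) ≤ (n : ℝ) ^ n * exp k * ((n + 1).ascFactorial k) := by
  induction k with
  | zero => simp
  | succ k ih =>
    set m := n + k with hm
    have h1 : ((m : ℝ) + 1) ^ m ≤ exp 1 * (m : ℝ) ^ m := by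
      rcases Nat.eq_zero_or_pos m with h | h
      · rw [h]; simp
      · have hm0 : (0 : ℝ) < m := by exact_mod_cast h
        have : ((m : ℝ) + 1) / m ≤ exp (1 / m) := by
          have := add_one_le_exp (1 / (m : ℝ))
          calc ((m : ℝ) + 1) / m = 1 / (m : ℝ) + 1 := by field_simp; ring
            _ ≤ _ := this
        have h2 := pow_le_pow_left₀ (by positivity) this m
        rw [div_pow, ← exp_nat_mul, mul_one_div_cancel hm0.ne', div_le_iff₀ (by positivity)] at h2
        exact h2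
    rw [Nat.ascFactorial_succ, show n + (k + 1) = m + 1 by omega,
      show n + 1 + k = m + 1 by omega, pow_succ]
    push_cast
    rw [exp_add]
    calc ((m : ℝ) + 1) ^ m * ((m : ℝ) + 1) ≤ exp 1 * (m : ℝ) ^ m * ((m : ℝ) + 1) := by gcongr
      _ ≤ exp 1 * ((n : ℝ) ^ n * exp k * ((n + 1).ascFactorial k)) * ((m : ℝ) + 1) := by gcongr
      _ = _ := by ring

open Real in
/-- `(n+k)^(n+k) / (n^n k^k)` exceeds the binomial coefficient by at most `e √k`. -/
theorem pow_div_le_choose (n : ℕ) {k : ℕ} (hk : 1 ≤ k) :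
    ((n + k : ℕ) : ℝ) ^ (n + k) / ((n : ℝ) ^ n * (k : ℝ) ^ k) ≤
      exp 1 * √k * ((n + k).choose k) := by
  have h1 := pow_div_pow_le_ascFactorial n k
  rw [Nat.ascFactorial_eq_factorial_mul_choose] at h1
  push_cast at h1
  have h2 := factorial_le_stirling hk
  have hn : (0 : ℝ) < (n : ℝ) ^ n := by exact_mod_cast Nat.pow_self_pos
  rw [div_le_iff₀ (by positivity)]
  push_cast
  calc ((n : ℝ) + k) ^ (n + k) ≤ (n : ℝ) ^ n * exp k * (k.factorial * ((n + k).choose k)) := h1
    _ ≤ (n : ℝ) ^ n * exp k * (exp 1 * √k * (k / exp 1) ^ k * ((n + k).choose k)) := by gcongr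
    _ = _ := by
      rw [← Real.exp_one_pow]
      field_simp
      rw [div_pow]
      field_simp

end Vale.Agent.P225.H1
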