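import Mathlib.Analysis.SpecificLimits.Basic
import Mathlib.Analysis.SpecialFunctions.Pow.Real

/-!
# Polynomial growth gives scales with a small growth ratio
-/

namespace Vale.Agent.P225.H1

open Filter

/-- A positive sequence bounded by `C q^j` grows by less than any `q' > q` in infinitely many steps. -/
theorem frequently_succ_lt {f : ℕ → ℝ} {C q q' : ℝ} (hf : ∀ j, 0 < f j) (hq : 0 < q) (hqq : q < q')
    (hb : ∀ᶠ j in atTop, f j ≤ C * q ^ j) : ∃ᶠ j in atTop, f (j + 1) < q' * f j := by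
  refine fun h => ?_
  simp only [not_lt] at h
  obtain ⟨N, hN⟩ := (h.and hb).exists_forall_of_atTop
  have hq' : 0 < q' := hq.trans hqq
  have hg : ∀ i, q' ^ i * f N ≤ f (N + i) := by
    intro i
    induction i with
    | zero => simp
    | succ i ih =>
      calc q' ^ (i + 1) * f N = q' * (q' ^ i * f N) := by ring
        _ ≤ q' * f (N + i) := by gcongr
        _ ≤ f (N + (i + 1)) := (hN (N + i) (Nat.le_add_right N i)).1
  obtain ⟨i, hi⟩ := ((tendsto_pow_atTop_atTop_of_one_lt ((one_lt_div hq).2 hqq)).eventually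
    (eventually_gt_atTop (C * q ^ N / f N))).exists
  have h2 := (hN (N + i) (Nat.le_add_right N i)).2
  have h3 := (hg i).trans h2
  rw [div_pow, div_lt_div_iff₀ (hf N) (by positivity)] at hi
  rw [pow_add] at h3
  linarith

/-- If `f t ≤ C t^p` for large `t` then for every `ε > 0` and `y < 1` there are arbitrarily large
`t` with `f (y t) ≥ y^(p+ε) f t`. -/
theorem exists_scale {f : ℝ → ℝ} {C p y ε : ℝ} (hf : ∀ t, 0 < t → 0 < f t) (hy : 0 < y)
    (hy1 : y < 1) (hε : 0 < ε) (hb : ∀ᶠ t in atTop, f t ≤ C * t ^ p) (T : ℝ) :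
    ∃ t, T ≤ t ∧ y ^ (p + ε) * f t ≤ f (y * t) := by
  set s : ℝ := y⁻¹ with hs
  have hs1 : 1 < s := (one_lt_inv₀ hy).2 hy1
  have hs0 : 0 < s := zero_lt_one.trans hs1
  have ht : Tendsto (fun j : ℕ => s ^ j) atTop atTop := tendsto_pow_atTop_atTop_of_one_lt hs1
  have hb' : ∀ᶠ j : ℕ in atTop, f (s ^ j) ≤ C * (s ^ p) ^ j := by
    filter_upwards [ht.eventually hb] with j hj
    rwa [← Real.rpow_natCast s j, ← Real.rpow_mul hs0.le, mul_comm (j : ℝ), Real.rpow_mul hs0.le,
      Real.rpow_natCast, Real.rpow_natCast] at hj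
  have hlt : s ^ p < s ^ (p + ε) := Real.rpow_lt_rpow_of_exponent_lt hs1 (by linarith)
  obtain ⟨j, hj, hT⟩ := ((frequently_succ_lt (fun j => hf _ (by positivity))
    (Real.rpow_pos_of_pos hs0 p) hlt hb').and_eventually
    (((tendsto_add_atTop_nat 1).eventually (ht.eventually (eventually_ge_atTop T))))).exists
  refine ⟨s ^ (j + 1), hT, ?_⟩
  have he : y * s ^ (j + 1) = s ^ j := by rw [pow_succ, hs]; field_simp
  rw [he]
  have hi : y ^ (p + ε) * s ^ (p + ε) = 1 := by
    rw [hs, ← Real.mul_rpow hy.le (by positivity), mul_inv_cancel₀ hy.ne', Real.one_rpow]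
  calc y ^ (p + ε) * f (s ^ (j + 1)) ≤ y ^ (p + ε) * (s ^ (p + ε) * f (s ^ j)) := by gcongr
    _ = f (s ^ j) := by rw [← mul_assoc, hi, one_mul]

end Vale.Agent.P225.H1
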